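import Vale.Agent.P352R.Pt.Pt0
import Vale.Agent.P352W.Cn.Ft
import Vale.Agent.P352W.Ch.I3
import Vale.Agent.P352.H246.Defs
import Mathlib.Analysis.Calculus.BumpFunction.Normed
import Mathlib.Analysis.Calculus.BumpFunction.Convolution
import Mathlib.Topology.Algebra.MvPolynomial

/-!
# P352R: solutions of the wave equation which vanish at spacelike points (helper72)
-/

set_option autoImplicit false
set_option linter.all false

open MeasureTheory Filter Topology Metric
open Complex hiding eta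
open scoped FourierTransform SchwartzMap ContDiff Real

noncomputable section

namespace Vale.Agent.P352R.Pt

open Vale.Agent.P352.GF Vale.Agent.P352W.Cn Vale.Agent.P352W.Ft
open Vale.Agent.P352.H246 (In)

/-- the spacelike points -/
def Sl : Set V := {y | mdot y y < 0}

/-- polynomial growth in the mean -/
def Gr (N : ℕ) (F : V → ℂ) : Prop := Integrable (fun p => F p / ((1 + ‖p‖ : ℝ) : ℂ) ^ N) Om

/-- the two functions have the same Fourier transforms at spacelike points -/
def Eq2 (F F' : V → ℂ) : Prop :=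
  ∀ g, In Sl g → ∫ p, ft g (-p) * F p ∂Om = ∫ p, ft g p * F' p ∂Om

/-- the value of a polynomial -/
def vl (P : MvPolynomial Ix ℂ) (p : V) : ℂ := MvPolynomial.eval (fun m => (p m : ℂ)) P

variable {N : ℕ} {F F' : V → ℂ}

theorem Gr.meas (h : Gr N F) : AEStronglyMeasurable F Om := by
  refine (h.1.mul (g := fun k => ((1 + ‖k‖ : ℝ) : ℂ) ^ N)
    (Continuous.aestronglyMeasurable (by fun_prop))).congr (.of_forall fun k => ?_)
  exact div_mul_cancel₀ _ (pow_ne_zero _ (ofReal_ne_zero.2 (by positivity)))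

theorem Gr.le (p : V) {v : ℂ} {C : ℝ} (hv : (1 + ‖p‖) ^ N * ‖v‖ ≤ C) :
    ‖v * F p‖ ≤ C * ‖F p / ((1 + ‖p‖ : ℝ) : ℂ) ^ N‖ := by
  have q : 0 < (1 + ‖p‖) ^ N := by positivity
  rw [norm_div, norm_pow, norm_real, Real.norm_of_nonneg (by positivity), norm_mul,
    mul_div_assoc', le_div_iff₀ q, mul_right_comm, mul_comm ‖v‖]
  exact mul_le_mul_of_nonneg_right hv (norm_nonneg _)

theorem Gr.int (h : Gr N F) {v : V → ℂ} (m : AEStronglyMeasurable v Om) {C : ℝ}
    (hv : ∀ᵐ p ∂Om, (1 + ‖p‖) ^ N * ‖v p‖ ≤ C) : Integrable (fun p => v p * F p) Om :=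
  (h.norm.const_mul C).mono' (m.mul h.meas) (hv.mono fun p e => Gr.le p e)

theorem Gr.co (h : Gr N F) (c : ℂ) (m : Ix) : Gr (N + 1) fun p => c * p m * F p := by
  refine (h.int (v := fun p => c * p m / ((1 + ‖p‖ : ℝ) : ℂ) ^ (N + 1)) (C := ‖c‖)
    (Continuous.aestronglyMeasurable (Continuous.div (by fun_prop) (by fun_prop) fun p =>
      pow_ne_zero _ (ofReal_ne_zero.2 (by positivity)))) (.of_forall fun p => ?_)).congr
    (.of_forall fun p => by simp only [div_mul_eq_mul_div])
  have q : 0 < 1 + ‖p‖ := by positivity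
  have := norm_le_pi_norm p m
  rw [norm_div, norm_pow, norm_real, Real.norm_of_nonneg q.le, norm_mul, norm_real, pow_succ,
    mul_div_assoc', mul_div_mul_left _ _ (pow_pos q N).ne', div_le_iff₀ q]
  gcongr
  linarith

theorem Eq2.co (h : Eq2 F F') (m : Ix) :
    Eq2 (fun p => 1 * p m * F p) fun p => -1 * p m * F' p := fun g hg => by
  have := h (pd m g) ⟨test_pd hg.1 m, hg.2.1.of_isClosed_subset (isClosed_tsupport _)
    (tsupport_pd hg.1 m), (tsupport_pd hg.1 m).trans hg.2.2⟩
  simp only [ft_pd hg.1] at this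
  have e : (I * eta m : ℂ) ≠ 0 := mul_ne_zero I_ne_zero (left_ne_zero_of_mul_eq_one (eta_sqC m))
  refine mul_left_cancel₀ e ?_
  rw [← integral_const_mul, ← integral_const_mul]
  refine Eq.trans (integral_congr_ae (.of_forall fun p => ?_))
    (this.trans (integral_congr_ae (.of_forall fun p => ?_))) <;> simp only [Pi.neg_apply] <;>
    push_cast <;> ring

/-- thin functions of time -/
def bt (n : ℕ) : ContDiffBump (0 : ℝ) :=
  ⟨((n : ℝ) + 2)⁻¹, ((n : ℝ) + 1)⁻¹, by positivity, by gcongr; linarith⟩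

/-- their Fourier transforms -/
def at' (n : ℕ) (s : ℝ) : ℂ := ∫ t, ((bt n).normed volume t : ℂ) * cexp (I * (s * t : ℝ))

theorem at_le (n : ℕ) (s : ℝ) : ‖at' n s‖ ≤ 1 := by
  refine (norm_integral_le_integral_norm _).trans_eq (Eq.trans ?_ ((bt n).integral_normed (μ := volume)))
  refine integral_congr_ae (.of_forall fun t => ?_)
  simp only [norm_mul, norm_ex, mul_one, norm_real, Real.norm_of_nonneg ((bt n).nonneg_normed t)]

theorem at_lim (s : ℝ) : Tendsto (fun n => at' n s) atTop (𝓝 1) := by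
  have r : Tendsto (fun n => (bt n).rOut) atTop (𝓝 0) := by
    simpa [bt] using tendsto_one_div_add_atTop_nhds_zero_nat (𝕜 := ℝ)
  have := ContDiffBump.convolution_tendsto_right_of_continuous (μ := volume)
    (g := fun t : ℝ => cexp (I * (s * -t : ℝ))) r (by fun_prop) 0
  simpa [convolution_def, at'] using this

/-- the spatial Fourier transform -/
def fs (h : E3 → ℂ) (k : E3) : ℂ := ∫ y, h y * cexp (I * (∑ i, k i * y i : ℝ))

theorem fs_eq (g : E3 → ℂ) (k : E3) :
    fs (fun y => g ((2 * π)⁻¹ • y)) k = ((2 * π) ^ 3 : ℝ) * 𝓕⁻ g k := by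
  have p : (0 : ℝ) < 2 * π := by positivity
  have := Measure.integral_comp_inv_smul volume
    (fun v : E3 => cexp ((2 * π * inner ℝ v k : ℝ) * I) • g v) (2 * π)
  rw [finrank_euclideanSpace, Fintype.card_fin, abs_of_pos (pow_pos p 3), real_smul] at this
  rw [Real.fourierInv_eq', ← this]
  refine integral_congr_ae (.of_forall fun y => ?_)
  simp only [smul_eq_mul]
  rw [mul_comm, mul_comm I, real_inner_smul_left, mul_inv_cancel_left₀ p.ne', PiLp.inner_apply]
  simp

theorem ft_prod (n : ℕ) {h : E3 → ℂ} (t : IsTest fun x : V => ((bt n).normed volume (x o) : ℂ) *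
    h (sp x)) (p : V) : ft (fun x : V => ((bt n).normed volume (x o) : ℂ) * h (sp x)) p =
      at' n (p o) * fs h (-sp p) := by
  rw [ft, (P352W.Ch.I3.slice (int_ex (test_int t) p)).2.2, at', ← integral_mul_const]
  refine integral_congr_ae (.of_forall fun s => ?_)
  simp only
  rw [fs, ← (PiLp.volume_preserving_toLp (Fin 3)).integral_comp
    (MeasurableEquiv.toLp 2 _).measurableEmbedding, ← integral_const_mul]
  refine integral_congr_ae (.of_forall fun y => ?_)
  simp only
  rw [mdot_eq, ofReal_sub, mul_sub, sub_eq_add_neg, Complex.exp_add, mul_mul_mul_comm]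
  simp only [PiLp.neg_apply, neg_mul, Finset.sum_neg_distrib, ofReal_neg, mul_neg]
  rfl

theorem sp_sm : ContDiff ℝ ∞ sp := by
  unfold sp
  exact PiLp.contDiff_toLp.comp (by fun_prop)

theorem in_prod {h : E3 → ℂ} (a : ContDiff ℝ ∞ h) (b : HasCompactSupport h) (c : 0 ∉ tsupport h) :
    ∀ᶠ n : ℕ in atTop, In Sl fun x : V => ((bt n).normed volume (x o) : ℂ) * h (sp x) := by
  obtain ⟨δ, p, q⟩ := Metric.mem_nhds_iff.1 ((isClosed_tsupport h).isOpen_compl.mem_nhds c)
  obtain ⟨R, r⟩ := b.isBounded.subset_closedBall 0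
  filter_upwards [(tendsto_one_div_add_atTop_nhds_zero_nat (𝕜 := ℝ)).eventually (gt_mem_nhds p)]
    with n hn
  have s : tsupport (fun x : V => ((bt n).normed volume (x o) : ℂ) * h (sp x)) ⊆
      {x | |x o| ≤ 1 / ((n : ℝ) + 1) ∧ sp x ∈ tsupport h} := by
    refine closure_minimal (fun x m => ⟨?_, subset_tsupport _ (right_ne_zero_of_mul m)⟩)
      ((isClosed_le (f := fun x : V => |x o|) (by fun_prop) continuous_const).and
        ((isClosed_tsupport h).preimage continuous_sp))
    have : x o ∈ Function.support ((bt n).normed volume) := fun e => left_ne_zero_of_mul m (by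
      rw [e, ofReal_zero])
    rw [(bt n).support_normed_eq, mem_ball_zero_iff] at this
    rw [one_div]; exact this.le
  have cs : HasCompactSupport fun x : V => ((bt n).normed volume (x o) : ℂ) * h (sp x) := by
    refine (isCompact_closedBall (0 : V) (max δ R)).of_isClosed_subset (isClosed_tsupport _)
      fun x m => mem_closedBall_zero_iff.2 ((pi_norm_le_iff_of_nonneg (by positivity)).2 fun i => ?_)
    refine Fin.cases ?_ (fun j => ?_) i
    · exact le_max_of_le_left ((s m).1.trans hn.le)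
    · exact le_max_of_le_right ((PiLp.norm_apply_le (sp x) j).trans
        (mem_closedBall_zero_iff.1 (r (s m).2)))
  refine ⟨test_of_compact ((ofRealCLM.contDiff.comp ((bt n).contDiff_normed.comp
    (contDiff_apply ℝ ℝ o))).mul (a.comp sp_sm)) cs, cs, fun x m => ?_⟩
  have u : δ ≤ ‖sp x‖ := not_lt.1 fun k => q (mem_ball_zero_iff.2 k) (s m).2
  have v := pow_lt_pow_left₀ ((s m).1.trans_lt (hn.trans_le u)) (abs_nonneg _) two_ne_zero
  rw [sq_abs, norm_sq_e3] at v
  show mdot x x < 0
  rw [mdot_eq]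
  simp only [sp_apply] at v
  linarith

/-- the Cauchy datum -/
def cd (F F' : V → ℂ) (k : E3) : ℂ := (((2 * ‖k‖)⁻¹ : ℝ) : ℂ) * (F (cn k) - F' (cn (-k)))

theorem gr_cn (h : Gr N F) :
    Integrable fun k : E3 => (((2 * ‖k‖)⁻¹ : ℝ) : ℂ) * F (cn k) / ((1 + ‖k‖ : ℝ) : ℂ) ^ N := by
  simpa only [real_smul, norm_cn, mul_div_assoc] using (integrable_om _).1 h

theorem cd_int (h : Gr N F) (h' : Gr N F') :
    Integrable fun k => cd F F' k / ((1 + ‖k‖ : ℝ) : ℂ) ^ N := by
  simpa only [cd, mul_sub, sub_div, norm_neg, Pi.sub_def] using (gr_cn h).sub (gr_cn h').comp_neg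

theorem cd_zero (h : Gr N F) (h' : Gr N F') (e : Eq2 F F') (g : E3 → ℂ) (a : ContDiff ℝ ∞ g)
    (b : HasCompactSupport g) (c : 0 ∉ tsupport g) : ∫ k, cd F F' k * 𝓕⁻ g k = 0 := by
  have p : (0 : ℝ) < 2 * π := by positivity
  have w := in_prod (h := fun y => g ((2 * π)⁻¹ • y)) (a.comp (contDiff_id.const_smul _))
    (b.comp_smul (inv_pos.2 p).ne') (by
      rw [notMem_tsupport_iff_eventuallyEq] at c ⊢
      exact (show Tendsto (fun y : E3 => (2 * π)⁻¹ • y) (𝓝 0) (𝓝 0) from
        (continuous_const_smul _).tendsto' _ _ (smul_zero _)).eventually c)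
  let ψ : 𝓢(E3, ℂ) := 𝓕⁻ (b.toSchwartzMap a)
  have eψ : 𝓕⁻ g = ψ := (SchwartzMap.fourierInv_coe (b.toSchwartzMap a)).symm
  obtain ⟨C, hC⟩ : ∃ C, ∀ k, (1 + ‖k‖) ^ N * ‖ψ k‖ ≤ C := ⟨_, fun k => by
    simpa using SchwartzMap.one_add_le_sup_seminorm_apply (𝕜 := ℝ) (m := (N, 0)) (n := 0)
      le_rfl le_rfl ψ k⟩
  have ns : ∀ᵐ p ∂Om, ‖sp p‖ = ‖p‖ := om_ae.mono fun p m => by
    rw [← norm_cn, cn_sp m.1.le m.2]
  have ca : ∀ n, Continuous (at' n) := fun n => continuous_of_dominated
    (bound := (bt n).normed volume) (fun s => Continuous.aestronglyMeasurable (by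
      have := (bt n).continuous_normed (μ := volume); fun_prop))
    (fun s => .of_forall fun t => by simp only [norm_mul, norm_ex, mul_one, norm_real,
      Real.norm_of_nonneg ((bt n).nonneg_normed t), le_refl]) (bt n).integrable_normed
    (.of_forall fun t => by fun_prop)
  have cψ := ψ.continuous
  have cs := continuous_sp
  have key : ∀ (G : V → ℂ) (s r : ℝ), |r| = 1 → Gr N G → Integrable (fun p => ψ (r • sp p) * G p) Om ∧
      Tendsto (fun n => ∫ p, at' n (s * p o) * ψ (r • sp p) * G p ∂Om) atTop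
        (𝓝 (∫ p, ψ (r • sp p) * G p ∂Om)) := fun G s r hr hG => by
    have bd : ∀ᵐ p ∂Om, (1 + ‖p‖) ^ N * ‖ψ (r • sp p)‖ ≤ C := ns.mono fun p m => by
      have := hC (r • sp p)
      rwa [norm_smul, Real.norm_eq_abs, hr, one_mul, m] at this
    have i := hG.int (v := fun p => ψ (r • sp p)) (Continuous.aestronglyMeasurable (by fun_prop)) bd
    refine ⟨i, tendsto_integral_of_dominated_convergence _ (fun n => ?_) i.norm
      (fun n => .of_forall fun p => ?_) (.of_forall fun p => ?_)⟩
    · have := ca n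
      exact (Continuous.aestronglyMeasurable (by fun_prop)).mul hG.meas
    · rw [mul_assoc, norm_mul]
      exact mul_le_of_le_one_left (norm_nonneg _) (at_le _ _)
    · simpa only [one_mul] using ((at_lim (s * p o)).mul_const _).mul_const _
  obtain ⟨i1, l1⟩ := key F (-1) 1 abs_one h
  obtain ⟨i2, l2⟩ := key F' 1 (-1) (by simp) h'
  have z := tendsto_nhds_unique_of_eventuallyEq l1 l2 (w.mono fun n m => by
    have := e _ m
    simp only [ft_prod n (h := fun y => g ((2 * π)⁻¹ • y)) m.1, fs_eq, eψ] at this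
    refine mul_left_cancel₀ (ofReal_ne_zero.2 (pow_pos p 3).ne') ?_
    rw [← integral_const_mul, ← integral_const_mul]
    refine Eq.trans (integral_congr_ae (.of_forall fun p => ?_))
      (this.trans (integral_congr_ae (.of_forall fun p => ?_)))
    · simp only [one_smul, neg_mul, one_mul, Pi.neg_apply, show -sp (-p) = sp p from neg_neg (sp p)]
      ring
    · simp only [neg_smul, one_smul, one_mul]
      ring)
  rw [integrable_om] at i1 i2
  simp only [real_smul] at i1 i2
  rw [integral_om, integral_om, ← integral_neg_eq_self (fun k : E3 => (((2 * ‖k‖)⁻¹ : ℝ) : ℂ) *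
    (ψ ((-1 : ℝ) • sp (cn k)) * F' (cn k))), ← sub_eq_zero, ← integral_sub i1 i2.comp_neg] at z
  rw [← z, eψ]
  refine integral_congr_ae (.of_forall fun k => ?_)
  simp only [cd, sp_cn, one_smul, neg_smul, neg_neg, norm_neg, real_smul]
  ring

theorem ae_om {P : V → Prop} : (∀ᵐ p ∂Om, P p) ↔ ∀ᵐ k : E3, P (cn k) := by
  unfold Om wm
  rw [cn_emb.ae_map_iff, ae_withDensity_iff measurable_dens]
  refine ⟨fun h => ?_, fun h => h.mono fun k a _ => a⟩
  filter_upwards [h, ae_ne_zero] with k a b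
  exact a (ENNReal.ofReal_pos.2 (by have := norm_pos_iff.2 b; positivity)).ne'

/-- **one variable** -/
theorem one (h : Gr N F) (h' : Gr N F') (e : Eq2 F F') : ∃ P : MvPolynomial Ix ℂ,
    P.totalDegree ≤ N + 1 ∧ (∀ᵐ p ∂Om, F p = vl P p) ∧ ∀ᵐ p ∂Om, F' p = vl P (-p) := by
  obtain ⟨A, a, ha⟩ := pt_poly (cd_int h h') (cd_zero h h' e)
  obtain ⟨B, b, hb⟩ := pt_poly (cd_int (h.co 1 o) (h'.co (-1) o))
    (cd_zero (h.co 1 o) (h'.co (-1) o) (e.co o))
  have v : ∀ p : V, vl (MvPolynomial.X o * MvPolynomial.rename Fin.succ A +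
      MvPolynomial.rename Fin.succ B) p = p o * MvPolynomial.eval (fun i => (sp p i : ℂ)) A +
        MvPolynomial.eval (fun i => (sp p i : ℂ)) B := fun p => by
    simp only [vl, map_add, map_mul, MvPolynomial.eval_X, MvPolynomial.eval_rename]
    rfl
  have k : ∀ᵐ k : E3, F (cn k) = ‖k‖ * MvPolynomial.eval (fun i => (k i : ℂ)) A +
      MvPolynomial.eval (fun i => (k i : ℂ)) B ∧ F' (cn (-k)) =
        -‖k‖ * MvPolynomial.eval (fun i => (k i : ℂ)) A + MvPolynomial.eval (fun i => (k i : ℂ)) B := by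
    filter_upwards [ha, hb, ae_ne_zero] with k p q r
    have : (‖k‖ : ℂ) ≠ 0 := ofReal_ne_zero.2 (norm_ne_zero_iff.2 r)
    rw [← p, ← q]
    simp only [cd, cn_o, norm_neg]
    push_cast
    constructor <;> field_simp <;> ring
  refine ⟨MvPolynomial.X o * MvPolynomial.rename Fin.succ A + MvPolynomial.rename Fin.succ B,
    (MvPolynomial.totalDegree_add _ _).trans (max_le ((MvPolynomial.totalDegree_mul _ _).trans ?_)
      ((MvPolynomial.totalDegree_rename_le _ _).trans b)), ae_om.2 (k.mono fun k m => ?_),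
    ae_om.2 ?_⟩
  · rw [MvPolynomial.totalDegree_X, add_comm]
    exact Nat.succ_le_succ ((MvPolynomial.totalDegree_rename_le _ _).trans a)
  · rw [v, m.1]; rfl
  · filter_upwards [(Measure.measurePreserving_neg volume).quasiMeasurePreserving.ae k] with k m
    have := m.2
    rw [neg_neg, norm_neg] at this
    rw [v, this, Pi.neg_apply, ofReal_neg]; rfl

theorem vl_cont (P : MvPolynomial Ix ℂ) : Continuous (vl P) :=
  (MvPolynomial.continuous_eval P).comp (by fun_prop)

/-- a polynomial which vanishes on the backward cone vanishes on the forward cone -/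
theorem vl_neg {P : MvPolynomial Ix ℂ} (h : ∀ᵐ p ∂Om, vl P (-p) = 0) (k : E3) : vl P (cn k) = 0 := by
  have c : Continuous fun k : E3 => vl P (-cn k) := (vl_cont P).comp continuous_cn.neg
  have z := (Continuous.ae_eq_iff_eq volume c continuous_const).1 (ae_om.1 h)
  let q : Polynomial ℂ := MvPolynomial.aeval (fun m => Polynomial.C (cn k m : ℂ) * Polynomial.X) P
  have e : ∀ t : ℝ, q.eval (t : ℂ) = vl P (t • cn k) := fun t => by
    rw [← Polynomial.coe_aeval_eq_eval, ← AlgHom.comp_apply, MvPolynomial.comp_aeval, vl,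
      ← MvPolynomial.coe_aeval_eq_eval]
    simp only [map_mul, Polynomial.aeval_C, Polynomial.aeval_X, Pi.smul_apply, smul_eq_mul,
      ofReal_mul, mul_comm (t : ℂ)]
    rfl
  have : q = 0 := Polynomial.eq_zero_of_infinite_isRoot q (Set.infinite_of_injective_forall_mem
    (f := fun n : ℕ => ((-n : ℝ) : ℂ)) (fun a b h => by simpa using h) fun n => by
      show q.eval _ = 0
      rw [e, ← congrFun z ((n : ℝ) • k)]
      congr 1
      funext m
      refine Fin.cases ?_ (fun i => ?_) m <;> simp [cn, norm_smul])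
  simpa [this] using (e 1).symm

/-- **the spacelike test functions are total** -/
theorem zero (h : Gr N F) (e : ∀ g, In Sl g → ∫ p, ft g (-p) * F p ∂Om = 0) : ∀ᵐ p ∂Om, F p = 0 := by
  obtain ⟨P, -, a, b⟩ := one (F' := 0) h (by simp [Gr]) fun g m => by simp [e g m]
  have := vl_neg (b.mono fun p m => m.symm)
  filter_upwards [a, om_ae] with p m n
  rw [m, ← cn_sp n.1.le n.2, this]

end Vale.Agent.P352R.Pt
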