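import Vale.Agent.P352R.Pt.Mn0
import Vale.Agent.P352R.Pt.One
import Vale.Agent.P352R.Ap.Ker
import Vale.Agent.P352W.Fk.Mec
import Mathlib.RingTheory.MvPolynomial.Basic
import Mathlib.GroupTheory.Perm.Fin

/-!
# P352R: weakly local symbols are polynomials in all the variables (helper32)
-/

set_option linter.all false

open MeasureTheory Filter Topology
open scoped Nat

noncomputable section

namespace Vale.Agent.P352R.Mn

open Vale.Agent.P352.GF Vale.Agent.P352W Vale.Agent.P352W.Fk Vale.Agent.P352W.Cn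
open Vale.Agent.P352.H246 (In)
open Vale.Agent.P352R.Pt

/-- classes of symbols which contain the polynomial symbols -/
structure Cl (C : ℕ → Wf → Prop) : Prop where
  vc : C 0 vc
  zero : ∀ n, C n 0
  add : ∀ {n P P'}, C n P → C n P' → C n (P + P')
  smul : ∀ (c : ℂ) {n P}, C n P → C n (c • P)
  cr : ∀ (q : MvPolynomial Ix ℂ) {n P}, C n P → C (n + 1) (dv fun p => vl q p • P)

theorem cl_pn : Cl Ap.Pn := ⟨.vc, .zero, .add, .smul, fun q _ _ h => h.cr (Ap.Mp.poly q)⟩

theorem ms_perm {n : ℕ} (x : Fin n → V) (π : Equiv.Perm (Fin n)) : ms (fun i => x (π i)) = ms x :=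
  Equiv.sum_comp π fun i => ({x i} : Multiset V)

theorem rr_ne (p : V) (N : ℕ) : ((rr p : ℝ) : ℂ) ^ N ≠ 0 :=
  pow_ne_zero _ (Complex.ofReal_ne_zero.2 (rr_pos p).ne')

theorem wt_ne (σ : Multiset V) (N : ℕ) : ((wt σ : ℝ) : ℂ) ^ N ≠ 0 :=
  pow_ne_zero _ (Complex.ofReal_ne_zero.2 (wt_pos σ).ne')

variable {C : ℕ → Wf → Prop}

/-- symmetrisation -/
theorem sym (hC : Cl C) {N : ℕ} {A : (V → ℂ) → Prop}
    (hA : ∀ c, A c → ∃ q, ∀ p, c p = vl q p / ((rr p : ℝ) : ℂ) ^ N) {n : ℕ} {Q : (Fin n → V) → ℂ}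
    (h : Tp A n Q) : ∃ P, C n P ∧ ∀ x, P (ms x) =
      (∑ π : Equiv.Perm (Fin n), Q fun i => x (π i)) * ((wt (ms x) : ℝ) : ℂ) ^ N := by
  classical
  induction h with
  | cst c => exact ⟨c • vc, hC.smul c hC.vc, fun x => by simp [ms_zero, vc, wt_zero]⟩
  | zero n => exact ⟨0, hC.zero n, fun x => by simp⟩
  | add _ _ e e' =>
    obtain ⟨P, c, e⟩ := e
    obtain ⟨P', c', e'⟩ := e'
    exact ⟨P + P', hC.add c c', fun x => by
      rw [Pi.add_apply, e, e', Finset.sum_add_distrib, add_mul]⟩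
  | @cons n a Q ha _ e =>
    obtain ⟨P, c, e⟩ := e
    obtain ⟨q, hq⟩ := hA a ha
    refine ⟨_, hC.cr q c, fun x => ?_⟩
    rw [← Equiv.Perm.decomposeFin.symm.sum_comp, Fintype.sum_prod_type, Finset.sum_mul, dv, sum_ms]
    refine Finset.sum_congr rfl fun i _ => ?_
    have k : ms x = x i ::ₘ ms fun j : Fin n => x (Equiv.swap 0 i j.succ) := by
      rw [← ms_perm x (Equiv.swap 0 i), ms_ins 0, Equiv.swap_apply_left]; rfl
    have t : ∀ π : Equiv.Perm (Fin n), Fin.tail (fun j => x (Equiv.Perm.decomposeFin.symm (i, π) j)) =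
        fun j => x (Equiv.swap 0 i (π j).succ) := fun π => funext fun j => by
      simp only [Fin.tail, Equiv.Perm.decomposeFin_symm_apply_succ]
    simp only [Equiv.Perm.decomposeFin_symm_apply_zero, t, ← Finset.mul_sum]
    rw [k, Multiset.erase_cons_head, Pi.smul_apply, e, wt_cons, hq, smul_eq_mul]
    have := rr_ne (x i) N
    push_cast
    rw [mul_pow]
    field_simp

theorem mp_perm {n : ℕ} (π : Equiv.Perm (Fin n)) :
    MeasurePreserving (fun (x : Fin n → V) i => x (π i)) (Mec.pw n) (Mec.pw n) := by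
  have := (measurePreserving_piCongrLeft (fun _ : Fin n => Om) π).symm
  convert this using 1
  funext x i
  simp [MeasurableEquiv.piCongrLeft]

/-- the polynomials divided by the weight -/
def pa (N : ℕ) (s : V → V) : MvPolynomial.restrictTotalDegree Ix ℂ (N + 1) →ₗ[ℂ] V → ℂ where
  toFun P p := vl P.1 (s p) / ((rr p : ℝ) : ℂ) ^ N
  map_add' P P' := funext fun p => by simp [vl, add_div]
  map_smul' c P := funext fun p => by simp [vl, mul_div_assoc]

theorem c_rr : Continuous fun p : V => ((rr p : ℝ) : ℂ) := Complex.continuous_ofReal.comp continuous_rr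

theorem n_rr (p : V) (N : ℕ) : ‖((rr p : ℝ) : ℂ) ^ N‖ = rr p ^ N := by
  rw [norm_pow, Complex.norm_real, Real.norm_of_nonneg (rr_pos p).le]

theorem int_pa (N : ℕ) {s : V → V} (hs : Continuous s) (e : ∀ p, rr (s p) = rr p) (P) :
    Integrable (fun p => ((Real.exp (-rr p) : ℝ) : ℂ) * pa N s P p) Om := by
  obtain ⟨k, c, c0, b⟩ := (Ap.Mp.poly P.1).bd
  refine (int_rr.const_mul (c * (k + 3)!)).mono' (Continuous.aestronglyMeasurable ?_)
    (.of_forall fun p => ?_)
  · exact (Complex.continuous_ofReal.comp (Real.continuous_exp.comp continuous_rr.neg)).mul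
      (((vl_cont _).comp hs).div (c_rr.pow N) fun p => rr_ne p N)
  · have r := rr_pos p
    have b1 : ‖pa N s P p‖ ≤ c * rr p ^ k := by
      change ‖vl P.1 (s p) / _‖ ≤ _
      rw [norm_div, n_rr]
      exact (div_le_self (norm_nonneg _) (one_le_pow₀ (rr_one p))).trans (e p ▸ b (s p))
    have b2 := Real.pow_div_factorial_le_exp (rr p) r.le (k + 3)
    rw [div_le_iff₀ (by positivity), pow_add] at b2
    rw [norm_mul, Complex.norm_real, Real.norm_of_nonneg (Real.exp_pos _).le, Real.exp_neg,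
      inv_mul_le_iff₀ (Real.exp_pos _), ← div_eq_mul_inv, ← mul_div_assoc, le_div_iff₀ (by positivity)]
    calc _ ≤ c * rr p ^ k * rr p ^ 3 := by gcongr
      _ ≤ c * (Real.exp (rr p) * (k + 3)!) := by rw [mul_assoc]; gcongr
      _ = _ := by ring

theorem bm_ft {g : Fn} (hg : IsTest g) (N : ℕ) {s : V → V} (hs : Continuous s)
    (e : ∀ p, rr (s p) = rr p) : (fun p => ft g (s p) * ((rr p : ℝ) : ℂ) ^ N) ∈ Bm V := by
  have h := Kr.hs_ft hg
  refine ⟨(h.1.comp hs.measurable).mul (c_rr.pow N).measurable, (h.2 N).imp fun c b p => ?_⟩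
  rw [norm_mul, n_rr, ← e]; exact b _

theorem gr_of {F : V → ℂ} (h : Integrable F Om) (N : ℕ) : Gr N fun p => F p * ((rr p : ℝ) : ℂ) ^ N := by
  have b : (fun p : V => ((rr p : ℝ) : ℂ) ^ N / ((1 + ‖p‖ : ℝ) : ℂ) ^ N) ∈ Bm V := by
    refine ⟨(c_rr.pow N).measurable.div (Continuous.measurable (by fun_prop)), 2 ^ N, fun p => ?_⟩
    have q : 0 < 1 + ‖p‖ := by positivity
    rw [norm_div, n_rr, norm_pow, Complex.norm_real, Real.norm_of_nonneg q.le, ← div_pow]
    refine pow_le_pow_left₀ (div_nonneg (rr_pos p).le q.le) ?_ N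
    rw [div_le_iff₀ q, rr]; linarith [norm_nonneg p]
  refine (bm_int b h).congr (.of_forall fun p => ?_)
  simp only
  ring

theorem many (hC : Cl C) {n N : ℕ} {F F' : Wf}
    (i : Integrable (fun x : Fin n → V => F (ms x) / ((wt (ms x) : ℝ) : ℂ) ^ N) (Mec.pw n))
    (i' : Integrable (fun x : Fin n → V => F' (ms x) / ((wt (ms x) : ℝ) : ℂ) ^ N) (Mec.pw n))
    (h : ∀ g : Fin n → Fn, (∀ i, In Sl (g i)) →
      ∫ x, (∏ i, ft (g i) (-x i)) * F (ms x) ∂Mec.pw n =
        ∫ x, (∏ i, ft (g i) (x i)) * F' (ms x) ∂Mec.pw n) :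
    ∃ P, C n P ∧ ∀ᵐ x ∂Mec.pw n, F (ms x) = P (ms x) := by
  have w : ∀ (u : Fin n → ℂ) (x : Fin n → V) (z : ℂ), (∏ i, u i * ((rr (x i) : ℝ) : ℂ) ^ N) *
      (z / ((wt (ms x) : ℝ) : ℂ) ^ N) = (∏ i, u i) * z := fun u x z => by
    have := wt_ne (ms x) N
    rw [Finset.prod_mul_distrib, Finset.prod_pow, ← Complex.ofReal_prod, ← wt_ms]
    field_simp
  obtain ⟨Q, tq, eq⟩ := (many0 (μ := Om) (h0 := fun p => ((Real.exp (-rr p) : ℝ) : ℂ))
    ⟨(Complex.continuous_ofReal.comp (Real.continuous_exp.comp continuous_rr.neg)).measurable, 1,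
      fun p => by
        rw [Complex.norm_real, Real.norm_of_nonneg (Real.exp_pos _).le]
        exact Real.exp_le_one_iff.2 (neg_nonpos.2 (rr_pos p).le)⟩
    (fun p => Complex.ofReal_ne_zero.2 (Real.exp_pos _).ne') (pa N id) (pa N fun p => -p)
    (int_pa N continuous_id fun _ => rfl) (int_pa N continuous_neg rr_neg)
    (fun P z => ae_om.2 (.of_forall fun k => by
      change vl P.1 (cn k) / _ = 0
      rw [vl_neg (z.mono fun p hp => (div_eq_zero_iff.1 hp).resolve_right (rr_ne p N)), zero_div]))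
    (u := fun (g : {g // In Sl g}) p => ft g.1 (-p) * ((rr p : ℝ) : ℂ) ^ N)
    (v := fun g p => ft g.1 p * ((rr p : ℝ) : ℂ) ^ N)
    (fun g => bm_ft g.2.1 N continuous_neg rr_neg) (fun g => bm_ft g.2.1 N continuous_id fun _ => rfl)
    (fun G G' j j' e => by
      obtain ⟨P, d, p1, p2⟩ := one (gr_of j N) (gr_of j' N) fun g hg => by
        simpa only [mul_assoc, mul_comm (((rr _ : ℝ) : ℂ) ^ N)] using e ⟨g, hg⟩
      exact ⟨⟨P, (MvPolynomial.mem_restrictTotalDegree _ _ _).2 d⟩,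
        p1.mono fun p hp => eq_div_of_mul_eq (rr_ne p N) hp,
        p2.mono fun p hp => eq_div_of_mul_eq (rr_ne p N) hp⟩) n _ _
    ⟨i, i', fun g => by simpa only [w] using h _ fun j => (g j).2⟩).1
  obtain ⟨P, c, e⟩ := sym hC (N := N) (fun c ⟨P, k⟩ => ⟨P.1, fun p => k ▸ rfl⟩) tq
  refine ⟨_, hC.smul (n ! : ℂ)⁻¹ c, ?_⟩
  filter_upwards [ae_all_iff.2 fun π => (mp_perm π).quasiMeasurePreserving.ae eq] with x hx
  simp only [ms_perm] at hx
  have := wt_ne (ms x) N
  have f : (n ! : ℂ) ≠ 0 := Nat.cast_ne_zero.2 n.factorial_ne_zero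
  rw [Pi.smul_apply, e, ← Finset.sum_congr rfl fun π _ => hx π, Finset.sum_const, Finset.card_univ,
    Fintype.card_perm, Fintype.card_fin, nsmul_eq_mul, smul_eq_mul]
  field_simp

end Vale.Agent.P352R.Mn
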