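import Mathlib.MeasureTheory.Integral.Pi
import Mathlib.MeasureTheory.Integral.Prod
import Mathlib.MeasureTheory.Function.AEEqOfIntegral
import Mathlib.LinearAlgebra.Dual.Lemmas
import Mathlib.Analysis.Complex.Basic

/-!
# P352R: from one variable to many variables by dual bases (helper32), abstract form
-/

set_option linter.all false

open MeasureTheory Filter Topology

noncomputable section

namespace Vale.Agent.P352R.Mn

variable {X Y : Type} [MeasurableSpace X] [MeasurableSpace Y]

/-- bounded measurable functions -/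
def Bm (X : Type) [MeasurableSpace X] : Submodule ℂ (X → ℂ) where
  carrier := {s | Measurable s ∧ ∃ c, ∀ p, ‖s p‖ ≤ c}
  add_mem' := fun ⟨m, c, h⟩ ⟨m', c', h'⟩ =>
    ⟨m.add m', c + c', fun p => (norm_add_le _ _).trans (add_le_add (h p) (h' p))⟩
  zero_mem' := ⟨measurable_const, 0, fun p => by simp⟩
  smul_mem' := fun z s ⟨m, c, h⟩ => ⟨measurable_const.mul m, ‖z‖ * c, fun p => by
    rw [Pi.smul_apply, norm_smul]; exact mul_le_mul_of_nonneg_left (h p) (norm_nonneg z)⟩

theorem bm_mul {s t : X → ℂ} (hs : s ∈ Bm X) (ht : t ∈ Bm X) : (fun p => s p * t p) ∈ Bm X := by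
  obtain ⟨m, c, h⟩ := hs
  obtain ⟨m', c', h'⟩ := ht
  exact ⟨m.mul m', c * c', fun p => by
    rw [norm_mul]; exact mul_le_mul (h p) (h' p) (norm_nonneg _) ((norm_nonneg _).trans (h p))⟩

theorem bm_comp {s : X → ℂ} (hs : s ∈ Bm X) {g : Y → X} (hg : Measurable g) :
    (fun y => s (g y)) ∈ Bm Y := ⟨hs.1.comp hg, hs.2.imp fun c h y => h _⟩

theorem bm_one : (fun _ => 1 : X → ℂ) ∈ Bm X := ⟨measurable_const, 1, fun p => by simp⟩

theorem bm_ind {S : Set X} (hS : MeasurableSet S) : S.indicator (fun _ => (1 : ℂ)) ∈ Bm X :=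
  ⟨measurable_const.indicator hS, 1, fun p => (norm_indicator_le_norm_self _ _).trans (by simp)⟩

theorem bm_prod {n : ℕ} {s : Fin n → X → ℂ} (hs : ∀ i, s i ∈ Bm X) :
    (fun x : Fin n → X => ∏ i, s i (x i)) ∈ Bm (Fin n → X) := by
  refine Finset.prod_induction (M := (Fin n → X) → ℂ) (s := Finset.univ)
    (fun i x => s i (x i)) (· ∈ Bm (Fin n → X)) (fun a b => bm_mul) bm_one
    (fun i _ => bm_comp (hs i) (measurable_pi_apply i)) |>.imp (fun h => ?_) fun h => ?_
  · convert h using 1; funext x; rw [Finset.prod_apply]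
  · simpa only [Finset.prod_apply] using h

theorem bm_int {μ : Measure X} {s G : X → ℂ} (hs : s ∈ Bm X) (hG : Integrable G μ) :
    Integrable (fun p => s p * G p) μ :=
  hs.2.elim fun c h => hG.bdd_mul hs.1.aestronglyMeasurable (.of_forall h)

theorem zero1 {μ : Measure X} {G : X → ℂ} (hG : Integrable G μ)
    (h : ∀ s ∈ Bm X, ∫ p, s p * G p ∂μ = 0) : G =ᵐ[μ] 0 :=
  hG.ae_eq_zero_of_forall_setIntegral_eq_zero fun S hS _ => by
    rw [← integral_indicator hS, ← h _ (bm_ind hS)]
    congr 1; funext p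
    by_cases m : p ∈ S <;> simp [m]

variable {μ : Measure X} {ν : Measure Y} [SigmaFinite μ] [SigmaFinite ν] {G : X × Y → ℂ}
  {s : X → ℂ} {t : Y → ℂ}

theorem int2 (hG : Integrable G (μ.prod ν)) (hs : s ∈ Bm X) (ht : t ∈ Bm Y) :
    Integrable (fun z : X × Y => s z.1 * t z.2 * G z) (μ.prod ν) :=
  bm_int (bm_mul (bm_comp hs measurable_fst) (bm_comp ht measurable_snd)) hG

theorem fubA (hG : Integrable G (μ.prod ν)) (hs : s ∈ Bm X) (ht : t ∈ Bm Y) :
    ∫ z, s z.1 * t z.2 * G z ∂μ.prod ν = ∫ p, s p * ∫ y, t y * G (p, y) ∂ν ∂μ := by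
  rw [integral_prod _ (int2 hG hs ht)]
  simp only [mul_assoc, integral_const_mul]

theorem fubB (hG : Integrable G (μ.prod ν)) (hs : s ∈ Bm X) (ht : t ∈ Bm Y) :
    ∫ z, s z.1 * t z.2 * G z ∂μ.prod ν = ∫ y, t y * ∫ p, s p * G (p, y) ∂μ ∂ν := by
  rw [integral_prod_symm _ (int2 hG hs ht)]
  simp only [← integral_const_mul]
  congr 1; funext y; congr 1; funext p; ring

theorem intA (hG : Integrable G (μ.prod ν)) (ht : t ∈ Bm Y) :
    Integrable (fun p => ∫ y, t y * G (p, y) ∂ν) μ :=
  (bm_int (bm_comp ht measurable_snd) hG).integral_prod_left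

theorem intB (hG : Integrable G (μ.prod ν)) (hs : s ∈ Bm X) :
    Integrable (fun y => ∫ p, s p * G (p, y) ∂μ) ν :=
  (bm_int (bm_comp hs measurable_fst) hG).integral_prod_right

theorem zero2 (hG : Integrable G (μ.prod ν))
    (h : ∀ s ∈ Bm X, ∀ t ∈ Bm Y, ∫ z, s z.1 * t z.2 * G z ∂μ.prod ν = 0) : G =ᵐ[μ.prod ν] 0 := by
  have r : ∀ S T, MeasurableSet S → MeasurableSet T → ∫ z in S ×ˢ T, G z ∂μ.prod ν = 0 :=
    fun S T hS hT => by
      rw [← integral_indicator (hS.prod hT), ← h _ (bm_ind hS) _ (bm_ind hT)]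
      congr 1; funext z
      by_cases m : z.1 ∈ S <;> by_cases m' : z.2 ∈ T <;> simp [Set.indicator, m, m']
  refine hG.ae_eq_zero_of_forall_setIntegral_eq_zero fun S hS k => ?_
  clear k
  induction S, hS using MeasurableSpace.induction_on_inter generateFrom_prod.symm isPiSystem_prod with
  | empty => simp
  | basic S hS => obtain ⟨A, hA, B, hB, rfl⟩ := hS; exact r A B hA hB
  | compl S hS e =>
    have := integral_add_compl hS hG
    have u := r _ _ .univ .univ
    rw [Set.univ_prod_univ, Measure.restrict_univ] at u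
    rwa [e, u, zero_add] at this
  | iUnion f d m e =>
    have := hasSum_integral_iUnion m d hG.integrableOn
    simp only [e] at this
    exact this.unique hasSum_zero

section

variable {W H : Type} [AddCommGroup W] [Module ℂ W] [FiniteDimensional ℂ W] [AddCommGroup H]
  [Module ℂ H]

theorem mat (α : H →ₗ[ℂ] Module.Dual ℂ W) (l : Module.Dual ℂ W)
    (h : ∀ P, (∀ β, α β P = 0) → l P = 0) : ∃ β, α β = l := by
  have : l ∈ (LinearMap.range α).dualCoannihilator.dualAnnihilator :=
    (Submodule.mem_dualAnnihilator _).2 fun P hP =>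
      h P fun β => (Submodule.mem_dualCoannihilator _).1 hP _ ⟨β, rfl⟩
  rwa [Subspace.dualCoannihilator_dualAnnihilator_eq] at this

theorem dua (α : H →ₗ[ℂ] Module.Dual ℂ W) : ∃ (m : ℕ) (β : Fin m → H) (P : Fin m → W),
    ∀ γ, α γ = ∑ j, α γ (P j) • α (β j) := by
  obtain ⟨π, hπ⟩ := (LinearMap.range α).exists_isCompl
  let b := Module.finBasis ℂ W
  let pr := (LinearMap.range α).linearProjOfIsCompl π hπ
  choose β hβ using fun j => (pr (b.coord j)).2
  refine ⟨_, β, b, fun γ => ?_⟩
  have e : α γ = ∑ j, α γ (b j) • b.coord j := by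
    refine b.ext fun i => ?_
    simp [Finsupp.single_apply]
  have k : (pr (α γ) : Module.Dual ℂ W) = α γ :=
    congrArg Subtype.val (Submodule.linearProjOfIsCompl_apply_left hπ ⟨α γ, γ, rfl⟩)
  simp only [hβ]
  conv_lhs => rw [← k, e]
  simp only [map_sum, map_smul, Submodule.coe_sum, Submodule.coe_smul]

end

/-- sums of products of functions of one variable -/
inductive Tp (A : (X → ℂ) → Prop) : (n : ℕ) → ((Fin n → X) → ℂ) → Prop
  | cst (c : ℂ) : Tp A 0 fun _ => c
  | cons {n a Q} : A a → Tp A n Q → Tp A (n + 1) fun x => a (x 0) * Q (Fin.tail x)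
  | zero (n) : Tp A n fun _ => 0
  | add {n Q Q'} : Tp A n Q → Tp A n Q' → Tp A n fun x => Q x + Q' x

theorem Tp.sum {A : (X → ℂ) → Prop} {n : ℕ} {ι : Type} (s : Finset ι) {Q : ι → (Fin n → X) → ℂ}
    (h : ∀ j, Tp A n (Q j)) : Tp A n fun x => ∑ j ∈ s, Q j x := by
  classical
  induction s using Finset.induction_on with
  | empty => simpa using Tp.zero n
  | insert j s k e => simpa only [Finset.sum_insert k] using (h j).add e

theorem mp_cons (μ : Measure X) [SigmaFinite μ] (n : ℕ) :
    MeasurePreserving (fun z : X × (Fin n → X) => (Fin.cons z.1 z.2 : Fin (n + 1) → X))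
      (μ.prod (Measure.pi fun _ => μ)) (Measure.pi fun _ => μ) := by
  have m := (measurePreserving_piFinSuccAbove (fun _ : Fin (n + 1) => μ) 0).symm
  convert m using 1
  funext z
  simp [MeasurableEquiv.piFinSuccAbove, Fin.consEquiv]

theorem int_cons (μ : Measure X) [SigmaFinite μ] (n : ℕ) (F : (Fin (n + 1) → X) → ℂ) :
    ∫ x, F x ∂(Measure.pi fun _ => μ) =
      ∫ z, F (Fin.cons z.1 z.2) ∂μ.prod (Measure.pi fun _ : Fin n => μ) := by
  have m := (measurePreserving_piFinSuccAbove (fun _ : Fin (n + 1) => μ) 0).symm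
  rw [← m.integral_comp']
  congr 1; funext z
  simp [MeasurableEquiv.piFinSuccAbove, Fin.consEquiv]

theorem ae_cons (μ : Measure X) [SigmaFinite μ] (n : ℕ) {Q : (Fin (n + 1) → X) → Prop}
    (h : ∀ᵐ z ∂μ.prod (Measure.pi fun _ : Fin n => μ), Q (Fin.cons z.1 z.2)) :
    ∀ᵐ x ∂(Measure.pi fun _ => μ), Q x := by
  have m := measurePreserving_piFinSuccAbove (fun _ : Fin (n + 1) => μ) 0
  refine (m.quasiMeasurePreserving.ae h).mono fun x hx => ?_
  convert hx using 1
  simp [MeasurableEquiv.piFinSuccAbove, Fin.removeNth_zero]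

variable {W ι : Type} [AddCommGroup W] [Module ℂ W] [FiniteDimensional ℂ W]

/-- the pairing of bounded functions with the finite dimensional space -/
def al (μ : Measure X) (h0 : X → ℂ) (a : W →ₗ[ℂ] X → ℂ) (ia : ∀ P, Integrable (fun p => h0 p * a P p) μ) :
    Bm X →ₗ[ℂ] Module.Dual ℂ W :=
  LinearMap.mk₂ ℂ (fun β P => ∫ p, β.1 p * (h0 p * a P p) ∂μ)
    (fun β γ P => by
      simp only [Submodule.coe_add, Pi.add_apply, add_mul]
      exact integral_add (bm_int β.2 (ia P)) (bm_int γ.2 (ia P)))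
    (fun c β P => by
      simp only [Submodule.coe_smul, Pi.smul_apply, smul_eq_mul, mul_assoc, integral_const_mul])
    (fun β P P' => by
      simp only [map_add, Pi.add_apply, mul_add]
      exact integral_add (bm_int β.2 (ia P)) (bm_int β.2 (ia P')))
    (fun c β P => by
      simp only [map_smul, Pi.smul_apply, smul_eq_mul, ← integral_const_mul]
      congr 1; funext p; ring)

/-- the relation in `n` variables -/
def Rl (μ : Measure X) (u v : ι → X → ℂ) (n : ℕ) (F F' : (Fin n → X) → ℂ) : Prop :=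
  Integrable F (Measure.pi fun _ => μ) ∧ Integrable F' (Measure.pi fun _ => μ) ∧
    ∀ g : Fin n → ι, ∫ x, (∏ i, u (g i) (x i)) * F x ∂(Measure.pi fun _ => μ) =
      ∫ x, (∏ i, v (g i) (x i)) * F' x ∂(Measure.pi fun _ => μ)

theorem many0 {h0 : X → ℂ} (b0 : h0 ∈ Bm X) (n0 : ∀ p, h0 p ≠ 0) (a b : W →ₗ[ℂ] X → ℂ)
    (ia : ∀ P, Integrable (fun p => h0 p * a P p) μ) (ib : ∀ P, Integrable (fun p => h0 p * b P p) μ)
    (ab : ∀ P, b P =ᵐ[μ] 0 → a P =ᵐ[μ] 0) {u v : ι → X → ℂ} (hu : ∀ g, u g ∈ Bm X)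
    (hv : ∀ g, v g ∈ Bm X)
    (one : ∀ F F', Integrable F μ → Integrable F' μ →
      (∀ g, ∫ p, u g p * F p ∂μ = ∫ p, v g p * F' p ∂μ) → ∃ P, F =ᵐ[μ] a P ∧ F' =ᵐ[μ] b P)
    (n : ℕ) : ∀ F F', Rl μ u v n F F' →
      (∃ Q, Tp (fun c => ∃ P, a P = c) n Q ∧ F =ᵐ[Measure.pi fun _ => μ] Q) ∧
        (F' =ᵐ[Measure.pi fun _ => μ] 0 → F =ᵐ[Measure.pi fun _ => μ] 0) := by
  induction n with
  | zero =>
    intro F F' ⟨_, _, h⟩
    have e := h default
    simp only [Finset.univ_eq_empty, Finset.prod_empty, one_mul] at e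
    rw [Measure.pi_of_empty, integral_dirac, integral_dirac] at e
    refine ⟨⟨_, .cst (F default), .of_forall fun x => congrArg F (Subsingleton.elim _ _)⟩, fun k => ?_⟩
    rw [Measure.pi_of_empty, EventuallyEq, ae_dirac_eq, eventually_pure] at k ⊢
    exact e.trans k
  | succ n ih =>
    intro F F' ⟨i1, i2, h⟩
    have j1 := (mp_cons μ n).integrable_comp_of_integrable i1
    have j2 := (mp_cons μ n).integrable_comp_of_integrable i2
    have k1 := bm_int (bm_comp b0 measurable_fst) j1
    have k2 := bm_int (bm_comp b0 measurable_fst) j2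
    simp only [Function.comp_def] at j1 j2 k1 k2
    have key : ∀ β β' : Bm X, al μ h0 a ia β = al μ h0 b ib β' → Rl μ u v n
        (fun y => ∫ p, β.1 p * (h0 p * F (Fin.cons p y)) ∂μ)
        (fun y => ∫ p, β'.1 p * (h0 p * F' (Fin.cons p y)) ∂μ) := fun β β' e => by
      refine ⟨intB k1 β.2, intB k2 β'.2, fun g => ?_⟩
      have U := bm_prod fun i => hu (g i)
      have U' := bm_prod fun i => hv (g i)
      obtain ⟨P, p1, p2⟩ := one _ _ (intA j1 U) (intA j2 U') fun g0 => by
        have := h (Fin.cons g0 g)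
        rw [int_cons, int_cons] at this
        simp only [Fin.prod_univ_succ, Fin.cons_zero, Fin.cons_succ] at this
        rw [← fubA j1 (hu g0) U, ← fubA j2 (hv g0) U', this]
      rw [← fubB k1 β.2 U, ← fubB k2 β'.2 U', fubA k1 β.2 U, fubA k2 β'.2 U']
      have e' : ∫ p, β.1 p * (h0 p * a P p) ∂μ = ∫ p, β'.1 p * (h0 p * b P p) ∂μ :=
        LinearMap.congr_fun e P
      refine Eq.trans (integral_congr_ae ?_) (e'.trans (integral_congr_ae ?_))
      · filter_upwards [p1] with p hp
        rw [← hp, ← integral_const_mul (h0 p)]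
        congr 2; funext y; ring
      · filter_upwards [p2] with p hp
        rw [← hp, ← integral_const_mul (h0 p)]
        congr 2; funext y; ring
    have mt : ∀ β, ∃ β', al μ h0 a ia β = al μ h0 b ib β' := fun β => by
      refine (mat _ _ fun P hP => ?_).imp fun _ => Eq.symm
      have z : b P =ᵐ[μ] 0 := (zero1 (ib P) fun s hs => hP ⟨s, hs⟩).mono fun p hp =>
        (mul_eq_zero.1 hp).resolve_left (n0 p)
      refine (integral_congr_ae ((ab P z).mono fun p hp => ?_)).trans (integral_zero X ℂ)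
      simp only [hp, Pi.zero_apply, mul_zero]
    have fin : ∀ R : (Fin (n + 1) → X) → ℂ,
        (fun z : X × (Fin n → X) => h0 z.1 * F (Fin.cons z.1 z.2) - h0 z.1 * R (Fin.cons z.1 z.2))
          =ᵐ[μ.prod (Measure.pi fun _ => μ)] 0 → F =ᵐ[Measure.pi fun _ => μ] R := fun R e =>
      ae_cons μ n (e.mono fun z hz => mul_left_cancel₀ (n0 _) (sub_eq_zero.1 hz))
    refine ⟨?_, fun z => fin 0 ?_⟩
    · obtain ⟨m, β, P, d⟩ := dua (al μ h0 a ia)
      choose β' hβ using mt
      choose Q tq eq using fun j => (ih _ _ (key (β j) _ (hβ _))).1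
      refine ⟨_, Tp.sum Finset.univ fun j => .cons ⟨P j, rfl⟩ (tq j), fin _ ?_⟩
      have iq : ∀ j, Integrable (Q j) (Measure.pi fun _ => μ) := fun j => (intB k1 (β j).2).congr (eq j)
      have k3 : ∀ j, Integrable (fun z : X × (Fin n → X) => (h0 z.1 * a (P j) z.1) * Q j z.2)
          (μ.prod (Measure.pi fun _ => μ)) := fun j => (ia (P j)).mul_prod (iq j)
      simp only [Fin.cons_zero, Fin.tail_cons, Finset.mul_sum, ← mul_assoc]
      refine zero2 (k1.sub (integrable_finset_sum _ fun j _ => k3 j)) fun s hs t ht => ?_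
      let I : Bm X →ₗ[ℂ] ℂ :=
        { toFun := fun γ => ∫ z, γ.1 z.1 * t z.2 * (h0 z.1 * F (Fin.cons z.1 z.2))
            ∂μ.prod (Measure.pi fun _ => μ)
          map_add' := fun γ γ' => by
            simp only [Submodule.coe_add, Pi.add_apply, add_mul]
            exact integral_add (int2 k1 γ.2 ht) (int2 k1 γ'.2 ht)
          map_smul' := fun c γ => by
            simp only [Submodule.coe_smul, Pi.smul_apply, smul_eq_mul, mul_assoc, integral_const_mul,
              RingHom.id_apply] }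
      have z : I (⟨s, hs⟩ - ∑ j, al μ h0 a ia ⟨s, hs⟩ (P j) • β j) = 0 := by
        have := (ih _ _ (key (⟨s, hs⟩ - ∑ j, al μ h0 a ia ⟨s, hs⟩ (P j) • β j) 0 (by
          rw [map_zero, map_sub, map_sum, sub_eq_zero]
          simpa only [map_smul] using d _))).2 (.of_forall fun y => by simp)
        refine (fubB k1 (Subtype.prop _) ht).trans ((integral_congr_ae (this.mono fun y hy => ?_)).trans
          (integral_zero _ ℂ))
        simp only [hy, Pi.zero_apply, mul_zero]
      rw [map_sub, map_sum] at z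
      simp only [mul_sub, Finset.mul_sum]
      rw [integral_sub (int2 k1 hs ht) (integrable_finset_sum _ fun j _ => int2 (k3 j) hs ht),
        integral_finset_sum _ fun j _ => int2 (k3 j) hs ht, ← z]
      congr 2; funext j
      have e1 : I (β j) = ∫ y, t y * Q j y ∂(Measure.pi fun _ => μ) :=
        (fubB k1 (β j).2 ht).trans (integral_congr_ae ((eq j).mono fun y hy => congrArg (t y * ·) hy))
      rw [map_smul, e1, smul_eq_mul]
      refine Eq.trans ?_ (integral_prod_mul (fun p => s p * (h0 p * a (P j) p)) fun y => t y * Q j y)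
      congr 1; funext z; ring
    · simp only [Pi.zero_apply, mul_zero, sub_zero]
      refine zero2 k1 fun s hs t ht => ?_
      obtain ⟨β', e⟩ := mt ⟨s, hs⟩
      have z' := ((mp_cons μ n).quasiMeasurePreserving.ae z)
      have := (ih _ _ (key _ _ e)).2 (((Measure.measurePreserving_swap.quasiMeasurePreserving.ae
        z') |> Measure.ae_ae_of_ae_prod).mono fun y hy =>
          (integral_congr_ae (hy.mono fun p hp => ?_)).trans (integral_zero X ℂ))
      · refine (fubB k1 hs ht).trans ((integral_congr_ae (this.mono fun y hy => ?_)).trans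
          (integral_zero _ ℂ))
        simp only [hy, Pi.zero_apply, mul_zero]
      · simp only [Prod.swap, Pi.zero_apply] at hp
        simp only [hp, mul_zero]

end Vale.Agent.P352R.Mn
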