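import Mathlib.Analysis.Distribution.SchwartzSpace.Fourier
import Mathlib.Analysis.Distribution.AEEqOfIntegralContDiff
import Mathlib.Analysis.Calculus.BumpFunction.InnerProduct
import Mathlib.Analysis.Calculus.BumpFunction.FiniteDimension
import Mathlib.LinearAlgebra.Multilinear.Basis
import Mathlib.LinearAlgebra.Dual.Lemmas
import Mathlib.Algebra.MvPolynomial.Degrees
import Mathlib.Algebra.MvPolynomial.Eval

/-!
# P352R: functions whose Fourier transform is supported at the origin are polynomials (helper72)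
-/

set_option autoImplicit false
set_option linter.all false

open MeasureTheory Filter Topology Metric
open scoped FourierTransform SchwartzMap ContDiff Real

noncomputable section

namespace Vale.Agent.P352R.Pt

section

variable {E : Type*} [NormedAddCommGroup E] [InnerProductSpace ℝ E] [FiniteDimensional ℝ E]
  [MeasurableSpace E] [BorelSpace E]

/-- a function with vanishing jet is small -/
theorem jet_le {h : E → ℂ} (hh : ContDiff ℝ ∞ h) {K : ℝ} (m i : ℕ)
    (hK : ∀ y, ‖iteratedFDeriv ℝ (i + m) h y‖ ≤ K)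
    (h0 : ∀ j < i + m, iteratedFDeriv ℝ j h 0 = 0) (y : E) :
    ‖iteratedFDeriv ℝ i h y‖ ≤ K * ‖y‖ ^ m := by
  induction m generalizing i y with
  | zero => simpa using hK y
  | succ m ih =>
    have k : 0 ≤ K := (norm_nonneg _).trans (hK 0)
    have := (convex_closedBall (0 : E) ‖y‖).norm_image_sub_le_of_norm_fderiv_le (𝕜 := ℝ)
      (f := iteratedFDeriv ℝ i h) (C := K * ‖y‖ ^ m)
      (fun x _ => hh.differentiable_iteratedFDeriv (by exact_mod_cast ENat.coe_lt_top i) x)
      (fun x hx => by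
        rw [norm_fderiv_iteratedFDeriv]
        refine (ih (i + 1) (by rwa [add_right_comm]) (by rwa [add_right_comm]) x).trans ?_
        have := mem_closedBall_zero_iff.1 hx
        gcongr)
      (mem_closedBall_self (norm_nonneg y)) (mem_closedBall_zero_iff.2 le_rfl)
    rwa [h0 i (by omega), sub_zero, sub_zero, mul_assoc, ← pow_succ] at this

/-- decay of the Fourier transform -/
theorem ft_le {g : E → ℂ} (hg : ContDiff ℝ ∞ g) (hc : HasCompactSupport g) {N : ℕ} {B : ℝ}
    (hB : ∀ j ≤ N, ∫ y, ‖iteratedFDeriv ℝ j g y‖ ≤ B) (w : E) :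
    (1 + ‖w‖) ^ N * ‖𝓕 g w‖ ≤ 2 ^ N * (2 ^ N * ((N + 1) * B)) := by
  have b : 0 ≤ B := (integral_nonneg fun _ => norm_nonneg _).trans (hB 0 N.zero_le)
  have key : ∀ n ≤ N, ‖w‖ ^ n * ‖𝓕 g w‖ ≤ 2 ^ N * ((N + 1) * B) := fun n hn => by
    have := Real.pow_mul_norm_iteratedFDeriv_fourier_le (K := ⊤) (N := ⊤) hg
      (fun k n _ _ => (hc.toSchwartzMap hg).integrable_pow_mul_iteratedFDeriv volume k n)
      (k := 0) (n := n) le_top le_top w
    simp only [norm_iteratedFDeriv_zero, pow_zero, Nat.cast_zero, mul_zero, zero_add, one_mul,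
      Finset.range_one, Finset.singleton_product, Finset.sum_map, Function.Embedding.coeFn_mk]
      at this
    refine this.trans (mul_le_mul (pow_le_pow_right₀ one_le_two hn) ?_
      (Finset.sum_nonneg fun _ _ => integral_nonneg fun _ => by positivity) (by positivity))
    refine (Finset.sum_le_card_nsmul _ _ B fun j m => hB j ?_).trans ?_
    · have := Finset.mem_range.1 m; omega
    · rw [Finset.card_range, nsmul_eq_mul]
      gcongr
      exact_mod_cast Nat.succ_le_succ hn
  rcases le_total ‖w‖ 1 with p | p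
  · have := key 0 N.zero_le
    rw [pow_zero, one_mul] at this
    gcongr
    linarith
  · calc _ ≤ (2 * ‖w‖) ^ N * ‖𝓕 g w‖ := by gcongr; linarith
      _ = 2 ^ N * (‖w‖ ^ N * ‖𝓕 g w‖) := by ring
      _ ≤ _ := mul_le_mul_of_nonneg_left (key N le_rfl) (by positivity)

/-- the bump function -/
def bp (E : Type*) [NormedAddCommGroup E] : ContDiffBump (0 : E) := ⟨1, 2, one_pos, one_lt_two⟩

/-- the same with complex values -/
def ch (y : E) : ℂ := (bp E y : ℝ)

theorem ch_sm : ContDiff ℝ ∞ (ch : E → ℂ) := Complex.ofRealCLM.contDiff.comp (bp E).contDiff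

theorem ch_cs : HasCompactSupport (ch : E → ℂ) :=
  (bp E).hasCompactSupport.comp_left (g := fun r : ℝ => (r : ℂ)) Complex.ofReal_zero

theorem ch_one {y : E} (h : ‖y‖ ≤ 1) : ch y = 1 := by
  rw [ch, (bp E).one_of_mem_closedBall (mem_closedBall_zero_iff.2 h), Complex.ofReal_one]

theorem ch_zero {y : E} (h : 2 ≤ ‖y‖) : ch y = 0 := by
  rw [ch, (bp E).zero_of_le_dist (by rwa [dist_zero_right]), Complex.ofReal_zero]

theorem ch_le (y : E) : ‖ch y‖ ≤ 1 := by
  rw [ch, Complex.norm_real, Real.norm_of_nonneg (bp E).nonneg]; exact (bp E).le_one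

theorem sc_sm (s : ℝ) : ContDiff ℝ ∞ fun y : E => ch (s • y) := ch_sm.comp (contDiff_id.const_smul s)

/-- scale invariant bounds -/
theorem ch_sc (m : ℕ) : ∃ C : ℝ, 0 ≤ C ∧ ∀ (s : ℝ) (y : E),
    ‖y‖ ^ m * ‖iteratedFDeriv ℝ m (fun z => ch (s • z)) y‖ ≤ C := by
  refine ⟨SchwartzMap.seminorm ℝ m m ((ch_cs (E := E)).toSchwartzMap ch_sm), apply_nonneg _ _, fun s y => ?_⟩
  rw [iteratedFDeriv_comp_const_smul s (ch_sm.of_le (by exact_mod_cast le_top)), norm_smul,
    ← mul_assoc, norm_pow, ← mul_pow, mul_comm ‖y‖, ← norm_smul]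
  exact SchwartzMap.le_seminorm ℝ m m (ch_cs.toSchwartzMap ch_sm) (s • y)

/-- the cutoff at zero and at infinity -/
def th (t : ℝ) (y : E) : ℂ := ch (t⁻¹ • y) - ch (t • y)

theorem th_sm (t : ℝ) : ContDiff ℝ ∞ (th t : E → ℂ) := (sc_sm _).sub (sc_sm _)

theorem th_sc (m : ℕ) : ∃ C : ℝ, 0 ≤ C ∧ ∀ (t : ℝ) (y : E),
    ‖y‖ ^ m * ‖iteratedFDeriv ℝ m (th t) y‖ ≤ C := by
  obtain ⟨C, p, h⟩ := ch_sc (E := E) m
  refine ⟨C + C, by positivity, fun t y => ?_⟩
  have := iteratedFDeriv_sub_apply (𝕜 := ℝ) (i := m) (x := y)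
    ((sc_sm t⁻¹).of_le (by exact_mod_cast le_top)).contDiffAt
    ((sc_sm t).of_le (by exact_mod_cast le_top)).contDiffAt
  rw [show th t = (fun y : E => ch (t⁻¹ • y)) - fun y => ch (t • y) from rfl, this]
  refine (mul_le_mul_of_nonneg_left (norm_sub_le _ _) (by positivity)).trans ?_
  rw [mul_add]
  exact add_le_add (h _ y) (h _ y)

theorem th_far {t : ℝ} (ht : 1 ≤ t) {y : E} (h : 2 * t ≤ ‖y‖) : th t y = 0 := by
  have p : 0 < t := one_pos.trans_le ht
  rw [th, ch_zero, ch_zero, sub_zero]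
  · rw [norm_smul, Real.norm_of_nonneg p.le]; nlinarith
  · rw [norm_smul, Real.norm_of_nonneg (inv_pos.2 p).le, le_inv_mul_iff₀ p]; linarith

theorem th_near {t : ℝ} (ht : 1 ≤ t) {y : E} (h : ‖y‖ ≤ t⁻¹) : th t y = 0 := by
  have p : 0 < t := one_pos.trans_le ht
  have q : t⁻¹ ≤ 1 := inv_le_one_of_one_le₀ ht
  rw [th, ch_one, ch_one, sub_self]
  · rw [norm_smul, Real.norm_of_nonneg p.le, ← le_inv_mul_iff₀ p, mul_one]; exact h
  · rw [norm_smul, Real.norm_of_nonneg (inv_pos.2 p).le]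
    exact mul_le_one₀ q (norm_nonneg _) (h.trans q)

theorem th_lim {y : E} (h : y ≠ 0) : ∀ᶠ t : ℝ in atTop, th t y = 1 := by
  have p := norm_pos_iff.2 h
  filter_upwards [eventually_ge_atTop ‖y‖, eventually_ge_atTop (2 / ‖y‖)] with t a b
  have q : 0 < t := p.trans_le a
  rw [th, ch_one, ch_zero, sub_zero]
  · rw [norm_smul, Real.norm_of_nonneg q.le]; exact (div_le_iff₀ p).1 b
  · rw [norm_smul, Real.norm_of_nonneg (inv_pos.2 q).le, inv_mul_le_iff₀ q, mul_one]; exact a

theorem cs_mul (h : E → ℂ) {t : ℝ} (ht : 1 ≤ t) : HasCompactSupport fun y => h y * th t y :=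
  HasCompactSupport.intro (isCompact_closedBall (0 : E) (2 * t)) fun y m => by
    rw [th_far ht (not_le.1 (mt mem_closedBall_zero_iff.2 m)).le, mul_zero]

theorem out_mul (h : E → ℂ) {t : ℝ} (ht : 1 ≤ t) : (0 : E) ∉ tsupport fun y => h y * th t y := by
  rw [notMem_tsupport_iff_eventuallyEq]
  filter_upwards [closedBall_mem_nhds (0 : E) (inv_pos.2 (one_pos.trans_le ht))] with y m
  rw [th_near ht (mem_closedBall_zero_iff.1 m), mul_zero]; rfl

/-- uniform bounds for the derivatives of the truncated function -/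
theorem int_le (h : 𝓢(E, ℂ)) {N : ℕ} (h0 : ∀ j < N, iteratedFDeriv ℝ j h 0 = 0) :
    ∃ B : ℝ, ∀ t : ℝ, ∀ j ≤ N, ∫ y, ‖iteratedFDeriv ℝ j (fun y => h y * th t y) y‖ ≤ B := by
  choose C p hC using th_sc (E := E)
  set K := SchwartzMap.seminorm ℝ 0 N h
  have k : 0 ≤ K := apply_nonneg _ _
  let G : ℕ → E → ℝ := fun j y => ∑ i ∈ Finset.range (j + 1), (j.choose i : ℝ) * C (j - i) *
    ((closedBall (0 : E) 1).indicator (fun _ => K) y + ‖iteratedFDeriv ℝ i h y‖)
  have i1 : Integrable ((closedBall (0 : E) 1).indicator fun _ => K) :=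
    (integrableOn_const (measure_closedBall_lt_top).ne).integrable_indicator measurableSet_closedBall
  have hG : ∀ j, Integrable (G j) := fun j => integrable_finset_sum _ fun i _ =>
    (i1.add (by simpa using h.integrable_pow_mul_iteratedFDeriv volume 0 i)).const_mul _
  have n : ∀ y, 0 ≤ (closedBall (0 : E) 1).indicator (fun _ => K) y :=
    Set.indicator_nonneg fun _ _ => k
  have G0 : ∀ j y, 0 ≤ G j y := fun j y => Finset.sum_nonneg fun i _ => by
    have := p (j - i); have := n y; positivity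
  refine ⟨∑ j ∈ Finset.range (N + 1), ∫ y, G j y, fun t j hj => le_trans ?_
    (Finset.single_le_sum (f := fun j => ∫ y, G j y) (fun j _ => integral_nonneg (G0 j))
      (Finset.mem_range.2 (Nat.lt_succ_of_le hj)))⟩
  refine integral_mono_of_nonneg (.of_forall fun _ => norm_nonneg _) (hG j) (.of_forall fun y => ?_)
  refine (norm_iteratedFDeriv_mul_le (h.smooth ⊤) (th_sm t) y (by exact_mod_cast le_top)).trans
    (Finset.sum_le_sum fun i m => ?_)
  have m := Nat.le_of_lt_succ (Finset.mem_range.1 m)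
  rw [mul_assoc, mul_assoc]
  refine mul_le_mul_of_nonneg_left ?_ (Nat.cast_nonneg _)
  have c := hC (j - i) t y
  have c0 := p (j - i)
  rcases le_total ‖y‖ 1 with q | q
  · have e : i + (N - i) = N := by omega
    have := jet_le (h.smooth ⊤) (K := K) (N - i) i
      (fun y => by rw [e]; exact h.norm_iteratedFDeriv_le_seminorm ℝ N y) (by rwa [e]) y
    rw [Set.indicator_of_mem (mem_closedBall_zero_iff.2 q)]
    calc _ ≤ K * ‖y‖ ^ (j - i) * ‖iteratedFDeriv ℝ (j - i) (th t) y‖ := by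
          gcongr
          exact this.trans (mul_le_mul_of_nonneg_left
            (pow_le_pow_of_le_one (norm_nonneg _) q (by omega)) k)
      _ ≤ K * C (j - i) := by rw [mul_assoc]; gcongr
      _ ≤ _ := by rw [mul_comm]; gcongr; exact le_add_of_nonneg_right (norm_nonneg _)
  · rw [mul_comm]
    refine mul_le_mul (le_trans ?_ c) (le_add_of_nonneg_left (n y)) (norm_nonneg _) c0
    exact le_mul_of_one_le_left (norm_nonneg _) (one_le_pow₀ q)

variable {u : E → ℂ} {N : ℕ}

theorem int_mul (hu : Integrable fun k => u k / ((1 + ‖k‖ : ℝ) : ℂ) ^ N) {v : E → ℂ} {C : ℝ}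
    (hv : ∀ k, (1 + ‖k‖) ^ N * ‖v k‖ ≤ C) (k : E) :
    ‖u k * v k‖ ≤ C * ‖u k / ((1 + ‖k‖ : ℝ) : ℂ) ^ N‖ := by
  have p : 0 < (1 + ‖k‖) ^ N := by positivity
  rw [norm_div, norm_pow, Complex.norm_real, Real.norm_of_nonneg (by positivity), norm_mul,
    mul_div_assoc', le_div_iff₀ p, mul_assoc, mul_comm C, mul_comm ‖v k‖]
  exact mul_le_mul_of_nonneg_left (hv k) (norm_nonneg _)

theorem meas (hu : Integrable fun k => u k / ((1 + ‖k‖ : ℝ) : ℂ) ^ N) : AEStronglyMeasurable u := by
  refine (hu.1.mul (g := fun k => ((1 + ‖k‖ : ℝ) : ℂ) ^ N)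
    (Continuous.aestronglyMeasurable (by fun_prop))).congr (.of_forall fun k => ?_)
  exact div_mul_cancel₀ _ (pow_ne_zero _ (Complex.ofReal_ne_zero.2 (by positivity)))

/-- test functions with vanishing jet are killed -/
theorem kill (hu : Integrable fun k => u k / ((1 + ‖k‖ : ℝ) : ℂ) ^ N)
    (h0 : ∀ g : E → ℂ, ContDiff ℝ ∞ g → HasCompactSupport g → 0 ∉ tsupport g →
      ∫ k, u k * 𝓕⁻ g k = 0) (h : 𝓢(E, ℂ)) (hj : ∀ j < N, iteratedFDeriv ℝ j h 0 = 0)
    [Nontrivial E] : ∫ k, u k * 𝓕⁻ (h : E → ℂ) k = 0 := by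
  obtain ⟨B, hB⟩ := int_le h hj
  have sm : ∀ t, ContDiff ℝ ∞ fun y => h y * th t y := fun t => (h.smooth ⊤).mul (th_sm t)
  have lim : Tendsto (fun t : ℝ => ∫ k, u k * 𝓕⁻ (fun y => h y * th t y) k) atTop
      (𝓝 (∫ k, u k * 𝓕⁻ (h : E → ℂ) k)) := by
    refine tendsto_integral_filter_of_dominated_convergence
      (fun k => 2 ^ N * (2 ^ N * ((N + 1) * B)) * ‖u k / ((1 + ‖k‖ : ℝ) : ℂ) ^ N‖) ?_ ?_
      (hu.norm.const_mul _) (.of_forall fun k => Tendsto.const_mul _ ?_)
    · filter_upwards [eventually_ge_atTop 1] with t ht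
      refine (meas hu).mul (Continuous.aestronglyMeasurable ?_)
      rw [show (fun y => h y * th t y) = (cs_mul h ht).toSchwartzMap (sm t) from rfl,
        ← SchwartzMap.fourierInv_coe]
      exact SchwartzMap.continuous _
    · filter_upwards [eventually_ge_atTop 1] with t ht
      refine .of_forall (int_mul hu fun k => ?_)
      rw [Real.fourierInv_eq_fourier_neg, ← norm_neg k]
      exact ft_le (sm t) (cs_mul h ht) (hB t) _
    · simp only [Real.fourierInv_eq']
      refine tendsto_integral_filter_of_dominated_convergence (fun y => 2 * ‖h y‖)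
        (.of_forall fun t => Continuous.aestronglyMeasurable ?_) (.of_forall fun t =>
          .of_forall fun y => ?_) (h.integrable.norm.const_mul _) ?_
      · have := (sm t).continuous
        fun_prop
      · rw [norm_smul, Complex.norm_exp_ofReal_mul_I, one_mul, norm_mul, mul_comm]
        gcongr
        exact (norm_sub_le _ _).trans (by linarith [ch_le (t⁻¹ • y), ch_le (t • y)])
      · filter_upwards [show ∀ᵐ y : E, y ≠ 0 by simp [ae_iff]] with y hy
        refine tendsto_const_nhds.congr' ?_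
        filter_upwards [th_lim hy] with t e
        rw [e, mul_one]
  refine tendsto_nhds_unique lim (tendsto_const_nhds.congr' ?_)
  filter_upwards [eventually_ge_atTop 1] with t ht
  exact (h0 _ (sm t) (cs_mul h ht) (out_mul h ht)).symm

/-- integration against a function of polynomial growth -/
def lam (hu : Integrable fun k => u k / ((1 + ‖k‖ : ℝ) : ℂ) ^ N) : 𝓢(E, ℂ) →ₗ[ℂ] ℂ :=
  have i : ∀ ψ : 𝓢(E, ℂ), Integrable fun k => u k * ψ k := fun ψ =>
    (hu.norm.const_mul _).mono' ((meas hu).mul ψ.continuous.aestronglyMeasurable)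
      (.of_forall (int_mul hu fun k => by
        simpa using SchwartzMap.one_add_le_sup_seminorm_apply (𝕜 := ℝ) (m := (N, 0)) (n := 0)
          le_rfl le_rfl ψ k))
  { toFun := fun ψ => ∫ k, u k * ψ k
    map_add' := fun a b => by
      rw [← integral_add (i a) (i b)]; simp only [SchwartzMap.add_apply, mul_add]
    map_smul' := fun c a => by
      simp only [SchwartzMap.smul_apply, smul_eq_mul, RingHom.id_apply, mul_left_comm _ c,
        integral_const_mul] }

end

variable {ι : Type} [Fintype ι] [DecidableEq ι] [Nonempty ι] {u : EuclideanSpace ℝ ι → ℂ} {N : ℕ}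

/-- monomials -/
def mo {j : ℕ} (m : Fin j → ι) (k : EuclideanSpace ℝ ι) : ℂ := ∏ i, (k (m i) : ℂ)

theorem mo_le {j : ℕ} (m : Fin j → ι) (k : EuclideanSpace ℝ ι) : ‖mo m k‖ ≤ ‖k‖ ^ j := by
  rw [mo, norm_prod]
  refine (Finset.prod_le_prod (fun _ _ => norm_nonneg _) fun i _ => ?_ :
    _ ≤ ∏ _i : Fin j, ‖k‖).trans_eq (by simp)
  rw [Complex.norm_real]
  exact PiLp.norm_apply_le k _

theorem mo_cont {j : ℕ} (m : Fin j → ι) : Continuous (mo m) := by unfold mo; fun_prop

theorem mo_int {j : ℕ} (m : Fin j → ι) (ψ : 𝓢(EuclideanSpace ℝ ι, ℂ)) :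
    Integrable fun k => mo m k * ψ k :=
  (ψ.integrable_pow_mul volume j).mono' ((mo_cont m).mul ψ.continuous).aestronglyMeasurable
    (.of_forall fun k => by rw [norm_mul]; gcongr; exact mo_le m k)

/-- moments -/
def mm {j : ℕ} (m : Fin j → ι) : 𝓢(EuclideanSpace ℝ ι, ℂ) →ₗ[ℂ] ℂ where
  toFun := fun ψ => ∫ k, mo m k * ψ k
  map_add' := fun a b => by
    rw [← integral_add (mo_int m a) (mo_int m b)]; simp only [SchwartzMap.add_apply, mul_add]
  map_smul' := fun c a => by
    simp only [SchwartzMap.smul_apply, smul_eq_mul, RingHom.id_apply, mul_left_comm _ c,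
      integral_const_mul]

theorem jet_zero (ψ : 𝓢(EuclideanSpace ℝ ι, ℂ)) {j : ℕ} (h : ∀ m : Fin j → ι, mm m ψ = 0) :
    iteratedFDeriv ℝ j (𝓕 ψ : 𝓢(EuclideanSpace ℝ ι, ℂ)) 0 = 0 := by
  have i := fun n => ψ.integrable_pow_mul volume n
  apply ContinuousMultilinearMap.toMultilinearMap_injective
  refine Module.Basis.ext_multilinear (fun _ => (EuclideanSpace.basisFun ι ℝ).toBasis) fun m => ?_
  show iteratedFDeriv ℝ j _ 0 _ = 0
  rw [SchwartzMap.fourier_coe, Real.iteratedFDeriv_fourier (N := ⊤) (fun n _ => i n)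
    ψ.continuous.aestronglyMeasurable le_top, Real.fourier_continuousMultilinearMap_apply
    (VectorFourier.integrable_fourierPowSMulRight _ (i j) ψ.continuous.aestronglyMeasurable),
    Real.fourier_eq]
  have := h m
  simp only [VectorFourier.fourierPowSMulRight_apply, inner_zero_right, neg_zero,
    AddChar.map_zero_eq_one, one_smul, integral_smul]
  refine smul_eq_zero_of_right _ (Eq.trans (integral_congr_ae (.of_forall fun k => ?_)) this)
  have e : ∀ a, innerSL ℝ k (EuclideanSpace.single a 1) = k a := fun a =>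
    (EuclideanSpace.inner_single_right a 1 k).trans (by simp)
  simp [mo, e]

/-- **support at the origin**, monomials -/
theorem pt_mo (hu : Integrable fun k => u k / ((1 + ‖k‖ : ℝ) : ℂ) ^ N)
    (h0 : ∀ g : EuclideanSpace ℝ ι → ℂ, ContDiff ℝ ∞ g → HasCompactSupport g → 0 ∉ tsupport g →
      ∫ k, u k * 𝓕⁻ g k = 0) :
    ∃ c : (Σ j : Fin N, Fin j → ι) → ℂ, ∀ᵐ k, u k = ∑ a, c a * mo a.2 k := by
  have := mem_span_of_iInf_ker_le_ker (L := fun a : Σ j : Fin N, Fin j → ι => mm a.2)
    (K := lam hu) fun ψ m => by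
      have := kill hu h0 (𝓕 ψ) fun j hj => jet_zero ψ fun a =>
        (Submodule.mem_iInf _).1 m ⟨⟨j, hj⟩, a⟩
      rwa [← SchwartzMap.fourierInv_coe, FourierTransform.fourierInv_fourier_eq] at this
  obtain ⟨c, hc⟩ := (Submodule.mem_span_range_iff_exists_fun ℂ).1 this
  have ct : Continuous fun k => ∑ a : Σ j : Fin N, Fin j → ι, c a * mo a.2 k :=
    continuous_finset_sum _ fun a _ => (mo_cont _).const_mul _
  have li : LocallyIntegrable u :=
    (hu.locallyIntegrable.mul_continuous (g := fun k => ((1 + ‖k‖ : ℝ) : ℂ) ^ N)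
      (by fun_prop)).congr (.of_forall fun k =>
        div_mul_cancel₀ _ (pow_ne_zero _ (Complex.ofReal_ne_zero.2 (by positivity))))
  refine ⟨c, ae_eq_of_integral_contDiff_smul_eq li ct.locallyIntegrable fun g a b => ?_⟩
  let ψ : 𝓢(EuclideanSpace ℝ ι, ℂ) := (b.comp_left (g := fun r : ℝ => (r : ℂ))
    Complex.ofReal_zero).toSchwartzMap (Complex.ofRealCLM.contDiff.comp a)
  have e := DFunLike.congr_fun hc ψ
  simp only [LinearMap.sum_apply, LinearMap.smul_apply, smul_eq_mul] at e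
  calc _ = lam hu ψ := integral_congr_ae (.of_forall fun k => mul_comm _ _)
    _ = ∑ a : Σ j : Fin N, Fin j → ι, ∫ k, c a * (mo a.2 k * ψ k) := by
      rw [← e]; simp only [integral_const_mul]; rfl
    _ = _ := by
      rw [← integral_finset_sum _ fun a _ => (mo_int a.2 ψ).const_mul _]
      refine integral_congr_ae (.of_forall fun k => ?_)
      simp only [← mul_assoc, ← Finset.sum_mul]
      exact mul_comm _ _

/-- **support at the origin** -/
theorem pt_poly (hu : Integrable fun k => u k / ((1 + ‖k‖ : ℝ) : ℂ) ^ N)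
    (h0 : ∀ g : EuclideanSpace ℝ ι → ℂ, ContDiff ℝ ∞ g → HasCompactSupport g → 0 ∉ tsupport g →
      ∫ k, u k * 𝓕⁻ g k = 0) : ∃ P : MvPolynomial ι ℂ, P.totalDegree ≤ N ∧
      ∀ᵐ k, u k = MvPolynomial.eval (fun i => (k i : ℂ)) P := by
  obtain ⟨c, hc⟩ := pt_mo hu h0
  refine ⟨∑ a, MvPolynomial.C (c a) * ∏ i, MvPolynomial.X (a.2 i),
    MvPolynomial.totalDegree_finsetSum_le fun a _ => ?_, hc.mono fun k e => ?_⟩
  · refine (MvPolynomial.totalDegree_mul _ _).trans ?_
    rw [MvPolynomial.totalDegree_C, zero_add]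
    refine (MvPolynomial.totalDegree_finset_prod _ _).trans ?_
    simp
  · simp [e, mo]

end Vale.Agent.P352R.Pt
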